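import Vale.Agent.P261.H468.Spec

/-!
# P261, leaf D1: Lubin–Tate data over the Galois field with `v_{i+1} = X_i`
-/

open Vale.Agent.P251.F Vale.Agent.P251 Vale.Agent.P217

namespace Vale.Agent.P261

namespace H654

/-- Existence of Lubin–Tate data with `v_{i+1} = X_i`. -/
theorem exists_of_honda_X {p h : ℕ} {k : Type} [Field k] [hp : Fact p.Prime] (hh : h ≠ 0)
    (card : Nat.card k = p ^ h) (H : Law k) (honda : HondaOver p h H.toFG) :
    ∃ D : LTD p h k, ∀ i : Fin (h - 1), vv p (i + 1) D.FU = MvPolynomial.X i := by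
  have hk : (p : k) = 0 := natCast_eq_zero_of_mult hh honda.mult
  have hP : (p : MvPolynomial (Fin (h - 1)) k) = 0 := by
    rw [← map_natCast (MvPolynomial.C : k →+* MvPolynomial (Fin (h - 1)) k), hk, map_zero]
  let S : Set ℕ := {i | i < h}
  let u : ℕ → MvPolynomial (Fin (h - 1)) k := fun i =>
    if hi : i - 1 < h - 1 then MvPolynomial.X ⟨i - 1, hi⟩ else 0
  have hu : ∀ i : Fin (h - 1), u (i + 1) = MvPolynomial.X i := by
    intro i
    have : (i : ℕ) + 1 - 1 < h - 1 := by omega
    simp only [u, dif_pos this]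
    congr 1
  have hX : ∀ i : Fin (h - 1), vv p (i + 1) (deform hP H S u) = MvPolynomial.X i := by
    intro i
    rw [vv_deform_of_mem hP H S u (i := (i : ℕ) + 1) (show (i : ℕ) + 1 < h by omega)
      (Nat.succ_ne_zero _), hu]
  refine ⟨⟨H, deform hP H S u, hh, card, honda, ?_, ?_, ?_⟩, hX⟩
  · rw [Ih_eq_span hP, MvPolynomial.idealOfVars]
    congr 2
    funext i
    exact hX i
  · rw [deform_map_eq_map hP H S u MvPolynomial.constantCoeff]
    · have : (MvPolynomial.constantCoeff : MvPolynomial (Fin (h - 1)) k →+* k).comp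
          (algebraMap k (MvPolynomial (Fin (h - 1)) k)) = RingHom.id k := by
        ext a
        exact MvPolynomial.constantCoeff_C _ a
      rw [this, Law.map_id]
    · intro i hi hi0
      rw [vv_of_mult_lt honda.mult hi, map_zero, map_zero]
      simp only [u]
      split_ifs
      · exact MvPolynomial.constantCoeff_X _ _
      · exact map_zero _
  · intro ζ hζ
    refine lin_smul_deform hP H S u ζ ?_ ?_
    · rw [InvSeries.smul_eq_iff_isHom]
      exact honda.teich ζ
    · intro i _ hi0
      have h1 : p - 1 ∣ p ^ i - 1 := by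
        have := Nat.sub_dvd_pow_sub_pow p 1 i
        rwa [one_pow] at this
      obtain ⟨m, hm⟩ := h1
      rw [← map_pow, hm, pow_mul, ← Units.val_pow_eq_pow_val, hζ, Units.val_one, one_pow,
        map_one, one_mul]

end H654

/-- Lubin–Tate data over the Galois field with `v_{i+1} = X_i`. -/
theorem exists_LTD_X (p h : ℕ) [Fact p.Prime] (hh : h ≠ 0) :
    ∃ D : LTD p h (GaloisField p h), ∀ i : Fin (h - 1), vv p (i + 1) D.FU = MvPolynomial.X i := by
  obtain ⟨Γ, hΓ, h1, h2, -⟩ := exists_honda_galoisField p h (Nat.pos_of_ne_zero hh)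
  exact H654.exists_of_honda_X hh h2
    ⟨Γ.map (algebraMap (ZMod p) (GaloisField p h)), inferInstance⟩ h1

end Vale.Agent.P261
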