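import Vale.Agent.P261.H355.C

/-!
# P261, leaf D2: the limit of the actions on `E_j`
-/

open Vale.Agent.P251.F Vale.Agent.P251 Vale.Agent.P251.C Vale.Agent.P217

namespace Vale.Agent.P261

namespace H654

section Gen

variable {k : Type} [Field k] {r : ℕ}

/-- A law over `k[[X]]` is determined by its truncations. -/
theorem law_ext {F G : Law (MvPowerSeries (Fin r) k)} (h : ∀ j, F.map (tr k r j) = G.map (tr k r j)) :
    F = G := by
  apply Law.ext_ps
  ext1 d
  refine tr_ext (k := k) fun j => ?_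
  have h1 := congrArg (fun L : Law (EE k r j) => MvPowerSeries.coeff d L.ps) (h j)
  simpa [Law.map_ps] using h1

theorem coeff_eq_of_tr {j : ℕ} {a b : MvPowerSeries (Fin r) k} (h : tr k r j a = tr k r j b)
    (e : Fin r →₀ ℕ) (he : e.degree < j + 1) :
    MvPowerSeries.coeff e a = MvPowerSeries.coeff e b := by
  have h1 : EE.mk k r j (MvPowerSeries.truncTotal (j + 1) a) =
      EE.mk k r j (MvPowerSeries.truncTotal (j + 1) b) := h
  rw [Ideal.Quotient.eq, MvPolynomial.mem_pow_idealOfVars_iff'] at h1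
  have h2 := h1 e he
  rw [MvPolynomial.coeff_sub, sub_eq_zero, MvPowerSeries.coeff_truncTotal _ he,
    MvPowerSeries.coeff_truncTotal _ he] at h2
  exact h2

/-- An invertible series over `k[[X]]` with given truncations. -/
theorem exists_limSer (f : ∀ j, InvSeries (EE k r j))
    (hf : ∀ j, InvSeries.map (EE.red k r (Nat.le_succ j) : EE k r (j + 1) →+* EE k r j) (f (j + 1)) =
      f j) :
    ∃ F : InvSeries (MvPowerSeries (Fin r) k), ∀ j, InvSeries.map (tr k r j) F = f j := by
  have h1 : ∀ n, ∃ b : MvPowerSeries (Fin r) k, ∀ j, tr k r j b = (f j).c n := fun n => by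
    refine exists_lim (fun j => (f j).c n) fun j => ?_
    rw [← hf j, InvSeries.c_map]
    rfl
  choose c hc using h1
  have hu : IsUnit (c 0) := by
    rw [MvPowerSeries.isUnit_iff_constantCoeff, ← π_tr (j := 0) (c 0), hc 0 0]
    exact (f 0).isUnit.map (EE.π k r 0)
  refine ⟨InvSeries.ofCoeff c hu, fun j => InvSeries.ext_c fun n => ?_⟩
  rw [InvSeries.c_map, InvSeries.c_ofCoeff, hc]

theorem ser_ext {f g : InvSeries (MvPowerSeries (Fin r) k)}
    (h : ∀ j, InvSeries.map (tr k r j) f = InvSeries.map (tr k r j) g) : f = g := by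
  refine InvSeries.ext_c fun n => tr_ext fun j => ?_
  have h1 := congrArg (fun s : InvSeries (EE k r j) => s.c n) (h j)
  simpa using h1

theorem tr_C (j : ℕ) (c : k) : tr k r j (MvPowerSeries.C c) = algebraMap k (EE k r j) c := by
  have h1 : (MvPowerSeries.C c : MvPowerSeries (Fin r) k) =
      ((MvPolynomial.C c : MvPolynomial (Fin r) k) : MvPowerSeries (Fin r) k) :=
    (MvPolynomial.coe_C c).symm
  rw [h1, tr_coe]
  rfl

theorem π_comp_tr (j : ℕ) : (EE.π k r j).comp (tr k r j) = MvPowerSeries.constantCoeff :=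
  RingHom.ext fun a => π_tr a

theorem tr_comp_coe (j : ℕ) : (tr k r j).comp
    (MvPolynomial.coeToMvPowerSeries.ringHom : MvPolynomial (Fin r) k →+* _) = EE.mk k r j :=
  RingHom.ext fun a => tr_coe a

end Gen

section D

variable {p h : ℕ} [Fact p.Prime] {k : Type} [Field k] (D : LTD p h k)

theorem e_comp_redT {j j' : ℕ} (hj : j ≤ j') : ((D.coPt j).e).comp (D.redT hj) =
    (EE.red k (h - 1) hj : D.EJ j' →+* D.EJ j).comp (D.coPt j').e := by
  apply D.hom_ext
  · have h1 : ((D.coPt j).e).comp (D.inc j) = RingHom.id _ := (D.coPt j).e_ι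
    have h2 : ((D.coPt j').e).comp (D.inc j') = RingHom.id _ := (D.coPt j').e_ι
    rw [RingHom.comp_assoc, LTD.redT_comp_inc, ← RingHom.comp_assoc, h1, RingHom.comp_assoc, h2,
      RingHom.comp_id, RingHom.id_comp]
  · have h1 : InvSeries.map (D.coPt j).e (D.ser j) = 1 := (D.coPt j).e_f
    have h2 : InvSeries.map (D.coPt j').e (D.ser j') = 1 := (D.coPt j').e_f
    rw [← InvSeries.map_map, LTD.map_redT_ser, h1, ← InvSeries.map_map, h2, map_one]

theorem phi_apply (j : ℕ) (γ : D.GG) (x : D.EJ j) :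
    (D.coPt j).phi (D.sm j γ) x = (D.coPt j).e (D.sm j γ (D.inc j x)) := by
  rw [CoPt.phi, LTD.coPt_ι, RingHom.comp_apply, RingHom.comp_apply]

theorem red_comp_phi {j j' : ℕ} (hj : j ≤ j') (γ : D.GG) :
    (EE.red k (h - 1) hj : D.EJ j' →+* D.EJ j).comp ((D.coPt j').phi (D.sm j' γ)) =
      ((D.coPt j).phi (D.sm j γ)).comp (EE.red k (h - 1) hj : D.EJ j' →+* D.EJ j) := by
  refine RingHom.ext fun x => ?_
  have e1 := RingHom.congr_fun (e_comp_redT D hj) (D.sm j' γ (D.inc j' x))
  have e2 := RingHom.congr_fun (D.redT_comp_sm hj γ) (D.inc j' x)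
  have e3 := RingHom.congr_fun (D.redT_comp_inc hj) x
  rw [RingHom.comp_apply, RingHom.comp_apply] at e1 e2 e3
  rw [RingHom.comp_apply, RingHom.comp_apply, phi_apply, phi_apply, ← e3, ← e2, e1]

theorem map_red_ser {j j' : ℕ} (hj : j ≤ j') (γ : D.GG) :
    InvSeries.map (EE.red k (h - 1) hj : D.EJ j' →+* D.EJ j) ((D.coPt j').ser (D.sm j' γ)) =
      (D.coPt j).ser (D.sm j γ) := by
  have h1 : (EE.red k (h - 1) hj : D.EJ j' →+* D.EJ j).comp ((D.coPt j').e.comp (D.sm j' γ)) =
      ((D.coPt j).e.comp (D.sm j γ)).comp (D.redT hj) := by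
    rw [← RingHom.comp_assoc, ← e_comp_redT, RingHom.comp_assoc, RingHom.comp_assoc,
      LTD.redT_comp_sm]
  rw [CoPt.ser, CoPt.ser, LTD.coPt_f, LTD.coPt_f, InvSeries.map_map, h1, ← InvSeries.map_map,
    LTD.map_redT_ser]

theorem π_comp_phi (j : ℕ) (γ : D.GG) :
    (EE.π k (h - 1) j).comp ((D.coPt j).phi (D.sm j γ)) = EE.π k (h - 1) j := by
  have h2 : (OInv.lift (RingHom.id k) 1).comp (OInv.inc k) = RingHom.id k :=
    OInv.lift_comp_inc _ _
  refine RingHom.ext fun x => ?_
  have e1 := RingHom.congr_fun (D.π_comp_e (j := j)) (D.sm j γ (D.inc j x))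
  have e2 := RingHom.congr_fun (D.πT_comp_sm (j := j) γ) (D.inc j x)
  have e3 := RingHom.congr_fun (D.πT_comp_inc (j := j)) x
  have e4 := RingHom.congr_fun (D.α₁r_comp_inc γ) (EE.π k (h - 1) j x)
  have e5 := RingHom.congr_fun h2 (EE.π k (h - 1) j x)
  rw [RingHom.comp_apply, RingHom.comp_apply] at e1 e2 e3
  rw [RingHom.comp_apply] at e4 e5
  rw [RingHom.comp_apply, phi_apply, e1, e2, e3, e4, e5, RingHom.id_apply]

/-- Near `1` the action on `E_j` is trivial. -/
theorem exists_congr_phi (j : ℕ) : ∃ m' : ℕ, ∀ γ ∈ AutF.congr D.H.toFG m', ∀ x : D.EJ j,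
    (D.coPt j).phi (D.sm j γ) x = x := by
  have := D.finite
  have hfin : Finite (D.EJ j) := Module.finite_of_finite k
  let U : Subgroup D.GG :=
    { carrier := {γ | ∀ x : D.EJ j, γ • D.inc j x = D.inc j x}
      one_mem' := fun x => one_smul _ _
      mul_mem' := fun {a b} ha hb x => by
        rw [mul_smul, hb x, ha x]
      inv_mem' := fun {a} ha x => by
        rw [inv_smul_eq_iff, ha x] }
  have hU : IsOpen (U : Set D.GG) := by
    have h1 : (U : Set D.GG) = ⋂ x : D.EJ j, {γ : D.GG | γ • D.inc j x = D.inc j x} := by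
      ext γ
      simp only [Set.mem_iInter]
      rfl
    rw [h1]
    exact isOpen_iInter_of_finite fun x => DiscMod.isOpen_stab (D.inc j x)
  obtain ⟨m', hm'⟩ := AutF.exists_congr_le hU
  refine ⟨m', fun γ hγ x => ?_⟩
  have h2 : D.sm j γ (D.inc j x) = D.inc j x := hm' hγ x
  rw [phi_apply, h2, ← LTD.coPt_ι]
  exact (D.coPt j).e_ι_apply x

end D

end H654

open H654

theorem exists_lev {p h : ℕ} [Fact p.Prime] {k : Type} [Field k] (D : LTD p h k)
    (hX : ∀ i : Fin (h - 1), vv p (i + 1) D.FU = MvPolynomial.X i) :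
    ∃ L : Lev p h D.H (h - 1), L.m = 1 ∧ ∀ j γ,
      (∀ a, tr k (h - 1) j (L.φ γ a) = (D.coPt j).phi (D.sm j γ) (tr k (h - 1) j a)) ∧
      InvSeries.map (tr k (h - 1) j) (L.g γ) = (D.coPt j).ser (D.sm j γ) := by
  have hφ : ∀ γ : D.GG, ∃ F : MvPowerSeries (Fin (h - 1)) k →+* MvPowerSeries (Fin (h - 1)) k,
      ∀ j, (tr k (h - 1) j).comp F = ((D.coPt j).phi (D.sm j γ)).comp (tr k (h - 1) j) := by
    intro γ
    refine exists_limHom (fun j => ((D.coPt j).phi (D.sm j γ)).comp (tr k (h - 1) j)) fun j => ?_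
    have h1 := red_comp_phi D (Nat.le_succ j) γ
    change (EE.red k (h - 1) (Nat.le_succ j) : D.EJ (j + 1) →+* D.EJ j).comp
      (((D.coPt (j + 1)).phi (D.sm (j + 1) γ)).comp (tr k (h - 1) (j + 1))) = _
    rw [← RingHom.comp_assoc, h1, RingHom.comp_assoc]
    congr 1
    exact RingHom.ext fun a => red_tr (Nat.le_succ j) a
  choose φ hφ using hφ
  have hg : ∀ γ : D.GG, ∃ g : InvSeries (MvPowerSeries (Fin (h - 1)) k),
      ∀ j, InvSeries.map (tr k (h - 1) j) g = (D.coPt j).ser (D.sm j γ) := fun γ =>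
    exists_limSer (fun j => (D.coPt j).ser (D.sm j γ)) fun j => map_red_ser D (Nat.le_succ j) γ
  choose g hg using hg
  have hφ' : ∀ γ j a, tr k (h - 1) j (φ γ a) = (D.coPt j).phi (D.sm j γ) (tr k (h - 1) j a) :=
    fun γ j a => RingHom.congr_fun (hφ γ j) a
  obtain ⟨F, hF⟩ : ∃ F : Law (MvPowerSeries (Fin (h - 1)) k),
      F = D.FU.map MvPolynomial.coeToMvPowerSeries.ringHom := ⟨_, rfl⟩
  have hFE : ∀ j, F.map (tr k (h - 1) j) = D.FE j := by
    intro j
    rw [hF, Law.map_map, tr_comp_coe]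
    rfl
  have hF0 : F.map MvPowerSeries.constantCoeff = D.H := by
    rw [← π_comp_tr 0, ← Law.map_map, hFE, LTD.FE_map_π]
  refine ⟨{ m := 1
            hm := by have := D.hh; omega
            F := F
            φ := φ
            g := g
            law := ?_
            vlow := ?_
            vX := ?_
            alg := ?_
            red := ?_
            gred := ?_
            Fred := hF0
            cont := ?_ }, rfl, fun j γ => ⟨hφ' γ j, hg γ j⟩⟩
  · intro γ
    refine law_ext fun j => ?_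
    rw [InvSeries.map_smul, hg, Law.map_map, hφ, ← Law.map_map, hFE]
    exact (D.isCo j).ser_smul (LawAction.isLawHom γ)
  · intro i hi
    have hi0 : i = 0 := by omega
    subst hi0
    rw [vv_zero]
    exact D.p_eq_zero' MvPowerSeries.C
  · intro i
    rw [hF, vv_map, add_comm 1 (i : ℕ), hX]
    exact MvPolynomial.coe_X i
  · intro γ c
    refine tr_ext fun j => ?_
    rw [hφ', tr_C]
    exact (D.phiA j γ).commutes c
  · intro γ a
    rw [← π_tr (j := 0), hφ', ← π_tr (j := 0) a]
    exact RingHom.congr_fun (π_comp_phi D 0 γ) _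
  · intro γ
    rw [← π_comp_tr 0, ← InvSeries.map_map, hg, LTD.map_π_ser]
  · intro M
    obtain ⟨m', hm'⟩ := exists_congr_phi D M
    refine ⟨m', fun γ hγ a e he => ?_⟩
    have h1 : tr k (h - 1) M (φ γ a) = tr k (h - 1) M a := by
      rw [hφ', hm' γ hγ]
    exact coeff_eq_of_tr h1 e (by omega)

end Vale.Agent.P261
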